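import Vale.Agent.P275.H341.Ps

/-! # P275, lowest degree: row B -/

namespace Vale.Agent.P275.R2.H682

open Filter Topology Asymptotics Vale.Agent.P275.H341

theorem pow_mono {m n : ℕ} (h : m ≤ n) :
    (fun x : ℝ => x ^ m) =O[atTop] fun x : ℝ => x ^ n := by
  refine IsBigO.of_bound 1 ?_
  filter_upwards [eventually_ge_atTop (1 : ℝ)] with x hx
  rw [one_mul, Real.norm_of_nonneg (by positivity), Real.norm_of_nonneg (by positivity)]
  exact pow_le_pow_right₀ hx h

theorem ld_rec' {a : ℕ → ℂ} (h0 : a 0 = 1) (k : ℕ) :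
    ld a k - k * a k = -∑ j ∈ Finset.range k, ld a j * a (k - j) := by
  have h := ld_rec h0 k
  rw [Finset.Nat.sum_antidiagonal_eq_sum_range_succ_mk, Finset.sum_range_succ] at h
  simp only [Nat.sub_self, h0, mul_one] at h
  rw [← h]
  ring

theorem ld_zero' {a : ℕ → ℂ} (h0 : a 0 = 1) : ld a 0 = 0 := by
  have h := ld_rec' h0 0
  simpa using h

theorem main (a : ℝ → ℕ → ℂ) (E : ℕ) (h0 : ∀ x, a x 0 = 1)
    (ha : ∀ k, (fun x => a x k) =O[atTop] fun x : ℝ => x ^ (E * (k * (k + 1)))) (k : ℕ) :
    (fun x => ld (a x) k) =O[atTop] (fun x : ℝ => x ^ (E * (k * (k + 1)))) ∧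
      (fun x => ld (a x) k - k * a x k) =O[atTop]
        fun x : ℝ => x ^ (E * (k * (k + 1)) - 2 * E) := by
  induction k using Nat.strong_induction_on with
  | _ k ih =>
    have h2 : (fun x => ld (a x) k - k * a x k) =O[atTop]
        fun x : ℝ => x ^ (E * (k * (k + 1)) - 2 * E) := by
      have e : (fun x => ld (a x) k - k * a x k) =
          fun x => -∑ j ∈ Finset.range k, ld (a x) j * a x (k - j) := by
        funext x
        exact ld_rec' (h0 x) k
      rw [e]
      apply IsBigO.neg_left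
      apply IsBigO.fun_sum
      intro j hj
      rw [Finset.mem_range] at hj
      rcases Nat.eq_zero_or_pos j with rfl | hj0
      · have : (fun x => ld (a x) 0 * a x (k - 0)) = fun _ => (0 : ℂ) := by
          funext x
          rw [ld_zero' (h0 x), zero_mul]
        rw [this]
        exact isBigO_zero _ _
      · have h3 := ((ih j hj).1).mul (ha (k - j))
        refine h3.trans ?_
        have e2 : (fun x : ℝ => x ^ (E * (j * (j + 1))) * x ^ (E * ((k - j) * (k - j + 1)))) =
            fun x : ℝ => x ^ (E * (j * (j + 1)) + E * ((k - j) * (k - j + 1))) := by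
          funext x
          rw [pow_add]
        rw [e2]
        apply pow_mono
        obtain ⟨i, rfl⟩ := Nat.exists_eq_add_of_lt hj
        have e3 : j + i + 1 - j = i + 1 := by omega
        rw [e3]
        apply Nat.le_sub_of_add_le
        have : j * (j + 1) + (i + 1) * (i + 1 + 1) + 2 ≤ (j + i + 1) * (j + i + 1 + 1) := by
          nlinarith [Nat.mul_le_mul hj0 (Nat.succ_le_succ (Nat.zero_le i))]
        calc E * (j * (j + 1)) + E * ((i + 1) * (i + 1 + 1)) + 2 * E
            = E * (j * (j + 1) + (i + 1) * (i + 1 + 1) + 2) := by ring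
          _ ≤ E * ((j + i + 1) * (j + i + 1 + 1)) := Nat.mul_le_mul_left _ this
    refine ⟨?_, h2⟩
    have e : (fun x => ld (a x) k) = fun x => (ld (a x) k - k * a x k) + k * a x k := by
      funext x
      ring
    rw [e]
    exact (h2.trans (pow_mono (Nat.sub_le _ _))).add ((ha k).const_mul_left _)

theorem rowB (a : ℝ → ℕ → ℂ) (E : ℕ) (h0 : ∀ x, a x 0 = 1)
    (ha : ∀ k, (fun x => a x k) =O[atTop] fun x : ℝ => x ^ (E * (k * (k + 1)))) (k : ℕ)
    (_hk : 1 ≤ k) :
    (fun x => ld (a x) k - k * a x k) =O[atTop]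
      fun x : ℝ => x ^ (E * (k * (k + 1)) - 2 * E) :=
  (main a E h0 ha k).2

end Vale.Agent.P275.R2.H682
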